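import Vale.Agent.P022.H420.CM2

/-!
P022, [CM], block [TOR]: the `2^n`-torsion of `y² = x³ + B` is free of rank one over `ℤ[ω]/2^n`.
-/

open WeierstrassCurve WeierstrassCurve.Affine Polynomial

noncomputable section

namespace Vale.Agent.P022.H732

open Vale.Agent.P022.CM

variable {L : Type} [Field L] [DecidableEq L] {B : L}

omit [DecidableEq L] in
theorem two_ne (h6 : (6 : L) * B ≠ 0) : (2 : L) ≠ 0 := by
  intro h2; apply h6; linear_combination 3 * B * h2

omit [DecidableEq L] in
theorem three_ne (h6 : (6 : L) * B ≠ 0) : (3 : L) ≠ 0 := by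
  intro h3; apply h6; linear_combination 2 * B * h3

/-- divisibility by `2` -/
theorem exists_half [IsAlgClosed L] (h6 : (6 : L) * B ≠ 0) (Q : Pt B) :
    ∃ P : Pt B, (2 : ℕ) • P = Q := by
  have h2 := two_ne h6
  have h3 := three_ne h6
  have hB : B ≠ 0 := right_ne_zero_of_mul h6
  rcases Q with _ | ⟨X0, Y0, hQ⟩
  · exact ⟨0, by simp; rfl⟩
  · have hQe := eqn.1 hQ.1
    obtain ⟨x, hx⟩ : ∃ x : L, x ^ 4 - 4 * X0 * x ^ 3 - 8 * B * x - 4 * X0 * B = 0 := by
      set p : L[X] := X ^ 4 - C (4 * X0) * X ^ 3 - C (8 * B) * X - C (4 * X0 * B) with hp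
      have hdeg : p.natDegree = 4 := by
        rw [hp]
        compute_degree!
      have hd0 : p.degree ≠ 0 := by
        exact degree_ne_of_natDegree_ne (n := 0) (by omega)
      obtain ⟨x, hx⟩ := IsAlgClosed.exists_root p hd0
      refine ⟨x, ?_⟩
      rw [IsRoot.def, hp] at hx
      simpa using hx
    obtain ⟨y, hy⟩ := IsAlgClosed.exists_pow_nat_eq (x ^ 3 + B) (n := 2) two_pos
    have hy0 : 2 * y ≠ 0 := by
      intro h
      rcases mul_eq_zero.1 h with h | h
      · exact h2 h
      · subst h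
        have h1 : x * (9 * B) = 0 := by linear_combination -hx - (x - 4 * X0) * hy
        rcases mul_eq_zero.1 h1 with h4 | h4
        · subst h4
          apply hB
          linear_combination -hy
        · rcases mul_eq_zero.1 h4 with h5 | h5
          · apply h3
            have : (3 : L) * 3 = 0 := by linear_combination h5
            exact mul_self_eq_zero.1 this
          · exact hB h5
    have hP : (Wc B).Nonsingular x y := nons h6 hy
    obtain ⟨s, hs⟩ : ∃ s, s * (2 * y) = 3 * x ^ 2 := ⟨3 * x ^ 2 / (2 * y), by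
      rw [div_mul_cancel₀ _ hy0]⟩
    have hX : s ^ 2 - 2 * x = X0 := by
      have h4 : (2 * y) ^ 2 * (s ^ 2 - 2 * x - X0) = 0 := by
        linear_combination (s * (2 * y) + 3 * x ^ 2) * hs + hx - (8 * x + 4 * X0) * hy
      rcases mul_eq_zero.1 h4 with h5 | h5
      · exact absurd (pow_eq_zero_iff two_ne_zero |>.1 h5) hy0
      · exact sub_eq_zero.1 h5
    have hn := nons_tan hP hy0 hs
    have hsum := add_tan hP hy0 hs hn rfl rfl
    set Y1 := -(y + s * (s ^ 2 - 2 * x - x)) with hY1
    have hn' : (Wc B).Nonsingular X0 Y1 := by rw [hX] at hn; exact hn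
    have hsum' : (Point.some x y hP : Pt B) + Point.some x y hP = Point.some X0 Y1 hn' := by
      rw [hsum, Point.some.injEq]
      exact ⟨hX, rfl⟩
    have hsq : (Y1 - Y0) * (Y1 + Y0) = 0 := by
      linear_combination (eqn.1 hn'.1) - hQe
    rcases mul_eq_zero.1 hsq with h | h
    · refine ⟨Point.some x y hP, ?_⟩
      rw [two_nsmul, hsum', Point.some.injEq]
      exact ⟨rfl, sub_eq_zero.1 h⟩
    · refine ⟨-Point.some x y hP, ?_⟩
      rw [two_nsmul, ← neg_add, hsum', neg_some', Point.some.injEq]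
      exact ⟨rfl, by linear_combination -h⟩

/-- the three points of order two -/
theorem two_torsion (h6 : (6 : L) * B ≠ 0) (w : L) (hw : w ^ 2 + w + 1 = 0) {e : L}
    (he : (Wc B).Nonsingular e 0) (Q : Pt B) (hQ : (2 : ℕ) • Q = 0) :
    ∃ a b : ℤ, Q = en h6 w hw a b (Point.some e 0 he) := by
  have hee := eqn.1 he.1
  have h2 := two_ne h6
  rcases Q with _ | ⟨x, y, h⟩
  · refine ⟨0, 0, ?_⟩
    rw [en_apply, zero_smul, zero_smul, add_zero]; rfl
  · have hxy := eqn.1 h.1
    have hy : y = 0 := by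
      by_contra hy
      have hy0 : 2 * y ≠ 0 := mul_ne_zero h2 hy
      obtain ⟨s, hs⟩ : ∃ s, s * (2 * y) = 3 * x ^ 2 := ⟨3 * x ^ 2 / (2 * y), by
        rw [div_mul_cancel₀ _ hy0]⟩
      rw [two_nsmul, add_tan h hy0 hs (nons_tan h hy0 hs) rfl rfl] at hQ
      exact Point.some_ne_zero _ hQ
    subst hy
    have n1 : (Wc B).Nonsingular (w * e) 0 := nons h6 (by
      linear_combination hee - e ^ 3 * (w3 hw))
    have n2 : (Wc B).Nonsingular (w * (w * e)) 0 := nons h6 (by
      have := w3 hw
      linear_combination hee - e ^ 3 * (w ^ 3 + 1) * this)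
    have hprod : (x - e) * ((x - w * e) * (x - w * (w * e))) = 0 := by
      linear_combination hee - hxy + (-(e * x ^ 2) + w * e ^ 2 * x) * hw +
        (-(e ^ 3)) * (w3 hw)
    rcases mul_eq_zero.1 hprod with hx | hx
    · refine ⟨1, 0, ?_⟩
      rw [en_apply, one_smul, zero_smul, add_zero, Point.some.injEq]
      exact ⟨sub_eq_zero.1 hx, rfl⟩
    · rcases mul_eq_zero.1 hx with hx | hx
      · refine ⟨0, 1, ?_⟩
        rw [en_apply, one_smul, zero_smul, zero_add, om_some h6 w hw he n1, Point.some.injEq]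
        exact ⟨sub_eq_zero.1 hx, rfl⟩
      · refine ⟨-1, -1, ?_⟩
        have h1 := om_rel h6 w hw (Point.some e 0 he)
        rw [om_some h6 w hw he n1, om_some h6 w hw n1 n2] at h1
        rw [en_apply, om_some h6 w hw he n1, neg_smul, neg_smul, one_smul, one_smul]
        have h3 : (Point.some x 0 h : Pt B) = Point.some (w * (w * e)) 0 n2 := by
          rw [Point.some.injEq]
          exact ⟨sub_eq_zero.1 hx, rfl⟩
        rw [h3]
        rw [add_assoc] at h1
        rw [eq_neg_of_add_eq_zero_left h1]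
        abel

theorem two_T (e : L) (he : (Wc B).Nonsingular e 0) : (2 : ℕ) • (Point.some e 0 he : Pt B) = 0 := by
  rw [two_nsmul]
  exact add_opp he he rfl (by simp)

theorem en_T_eq_zero (h6 : (6 : L) * B ≠ 0) (w : L) (hw : w ^ 2 + w + 1 = 0) {e : L}
    (he : (Wc B).Nonsingular e 0) (a b : ℤ) (h : en h6 w hw a b (Point.some e 0 he) = 0) :
    2 ∣ a ∧ 2 ∣ b := by
  have hee := eqn.1 he.1
  have n1 : (Wc B).Nonsingular (w * e) 0 := nons h6 (by
    linear_combination hee - e ^ 3 * (w3 hw))
  have n2 : (Wc B).Nonsingular (w * (w * e)) 0 := nons h6 (by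
    have := w3 hw
    linear_combination hee - e ^ 3 * (w ^ 3 + 1) * this)
  have hT := two_T e he
  have hT1 := two_T (w * e) n1
  rw [en_apply, om_some h6 w hw he n1] at h
  have red : ∀ (c : ℤ) (P : Pt B), (2 : ℕ) • P = 0 → c • P = (c % 2) • P := by
    intro c P hP
    conv_lhs => rw [← Int.emod_add_mul_ediv c 2]
    rw [add_smul, mul_comm, mul_smul]
    have : (2 : ℤ) • P = 0 := by
      have := hP
      rw [← natCast_zsmul] at this
      exact_mod_cast this
    rw [this, smul_zero, add_zero]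
  rw [red a _ hT, red b _ hT1] at h
  rcases Int.emod_two_eq_zero_or_one a with ha | ha <;>
    rcases Int.emod_two_eq_zero_or_one b with hb | hb
  · exact ⟨Int.dvd_of_emod_eq_zero ha, Int.dvd_of_emod_eq_zero hb⟩
  · rw [ha, hb, zero_smul, one_smul, zero_add] at h
    exact absurd h (Point.some_ne_zero _)
  · rw [ha, hb, zero_smul, one_smul, add_zero] at h
    exact absurd h (Point.some_ne_zero _)
  · rw [ha, hb, one_smul, one_smul] at h
    have h1 := om_rel h6 w hw (Point.some e 0 he)
    rw [om_some h6 w hw he n1, om_some h6 w hw n1 n2, add_assoc,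
      add_comm (Point.some (w * e) 0 n1 : Pt B), h, add_zero] at h1
    exact absurd h1 (Point.some_ne_zero _)

theorem en_add (h6 : (6 : L) * B ≠ 0) (w : L) (hw : w ^ 2 + w + 1 = 0) (a b c d : ℤ) (P : Pt B) :
    en h6 w hw (a + c) (b + d) P = en h6 w hw a b P + en h6 w hw c d P := by
  rw [en_apply, en_apply, en_apply, add_smul, add_smul]
  abel

theorem en_mul (h6 : (6 : L) * B ≠ 0) (w : L) (hw : w ^ 2 + w + 1 = 0) (k : ℕ) (a b : ℤ)
    (P : Pt B) : en h6 w hw (k * a) (k * b) P = en h6 w hw a b (k • P) := by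
  rw [en_apply, en_apply, map_nsmul, mul_smul, mul_smul, natCast_zsmul, natCast_zsmul,
    smul_comm a k, smul_comm b k]

/-- **[TOR]**. -/
theorem TOR : TORStmt := by
  intro L _ _ _ B h6 w hw
  obtain ⟨e, he⟩ := IsAlgClosed.exists_pow_nat_eq (-B) (n := 3) (by norm_num)
  have hT : (Wc B).Nonsingular e 0 := nons h6 (by rw [he]; ring)
  choose half hhalf using exists_half h6
  set T : Pt B := Point.some e 0 hT with hTdef
  let P : ℕ → Pt B := fun n => match n with
    | 0 => 0
    | n + 1 => half^[n] T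
  have hP0 : P 0 = 0 := rfl
  have hP1 : P 1 = T := rfl
  have hPs : ∀ n, (2 : ℕ) • P (n + 1) = P n := by
    intro n
    cases n with
    | zero => rw [hP1, hP0]; exact two_T e hT
    | succ n =>
      change (2 : ℕ) • (half^[n + 1] T) = half^[n] T
      rw [Function.iterate_succ_apply', hhalf]
  have hPn : ∀ n, (2 ^ n : ℕ) • P (n + 1) = T := by
    intro n
    induction n with
    | zero => rw [pow_zero, one_smul, hP1]
    | succ n ih => rw [pow_succ, mul_smul, hPs, ih]
  refine ⟨P, hP0, hPs, ?_, ?_⟩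
  · intro n
    induction n with
    | zero =>
      intro Q hQ
      refine ⟨0, 0, ?_⟩
      rw [pow_zero, one_smul] at hQ
      rw [hQ, en_apply, zero_smul, zero_smul, add_zero]
    | succ n ih =>
      intro Q hQ
      rw [pow_succ, mul_smul] at hQ
      obtain ⟨a, b, hab⟩ := ih _ hQ
      have h1 : (2 : ℕ) • (Q - en h6 w hw a b (P (n + 1))) = 0 := by
        rw [smul_sub, hab, ← map_nsmul, hPs, sub_self]
      obtain ⟨c, d, hcd⟩ := two_torsion h6 w hw hT _ h1
      refine ⟨((2 ^ n : ℕ) : ℤ) * c + a, ((2 ^ n : ℕ) : ℤ) * d + b, ?_⟩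
      rw [en_add, en_mul, hPn, ← hcd, sub_add_cancel]
  · intro n
    induction n with
    | zero => intro a b _; simp
    | succ n ih =>
      intro a b h
      have h1 : en h6 w hw a b T = 0 := by
        rw [← hPn n, map_nsmul, h, smul_zero]
      obtain ⟨⟨a', rfl⟩, ⟨b', rfl⟩⟩ := en_T_eq_zero h6 w hw hT a b h1
      have h2 : en h6 w hw a' b' (P n) = 0 := by
        rw [← hPs, ← en_mul]
        exact_mod_cast h
      obtain ⟨h3, h4⟩ := ih a' b' h2
      rw [pow_succ']
      exact ⟨mul_dvd_mul_left 2 h3, mul_dvd_mul_left 2 h4⟩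

end Vale.Agent.P022.H732
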