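import Mathlib

/-!
P022, block [E] of the plan [CF] (helper111 / helper567): for every prime `l`, exponent `A`, finite
set `T` of natural numbers `≥ 2` and bound `B` there is a squarefree `m` all of whose primes are
`> B` and a surjective character `ψ` of `(ℤ/m)ˣ` of `l`-power order with `ψ (-1) = 1` such that
`l ^ A` divides the order of `ψ p` for every `p ∈ T`.
-/

namespace Vale.Agent.P022.H732

open Finset

/-- If `y = z ^ l ≥ 2` then `1 + y + .. + y ^ (l - 1)` has a prime factor different from `l`. -/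
theorem exists_prime_geom {l z : ℕ} (hl : l.Prime) (hy : 2 ≤ z ^ l) :
    ∃ q : ℕ, q.Prime ∧ q ≠ l ∧ q ∣ ∑ i ∈ range l, (z ^ l) ^ i := by
  have : Fact l.Prime := ⟨hl⟩
  set y := z ^ l with hydef
  set S := ∑ i ∈ range l, y ^ i with hS
  have hSl : l < S := by
    calc l = ∑ i ∈ range l, 1 := by simp
      _ < S := by
        apply Finset.sum_lt_sum
        · intro i _
          exact Nat.one_le_pow _ _ (by omega)
        · exact ⟨1, Finset.mem_range.2 hl.one_lt, by rw [pow_one]; omega⟩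
  have hgeom : ∀ {R : Type} [CommRing R], (S : R) * ((y : R) - 1) = (y : R) ^ l - 1 := by
    intro R _
    rw [hS]
    push_cast
    exact geom_sum_mul _ _
  have hsq : ¬ l ^ 2 ∣ S := by
    intro h
    have h0 : (S : ZMod l) = 0 := by
      rw [ZMod.natCast_eq_zero_iff]
      exact (dvd_pow_self l two_ne_zero).trans h
    have h1 : (y : ZMod l) = 1 := by
      have := hgeom (R := ZMod l)
      rw [h0, zero_mul, ZMod.pow_card] at this
      exact (sub_eq_zero.1 this.symm)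
    have h2 : (z : ZMod l) = 1 := by
      have : (y : ZMod l) = (z : ZMod l) := by
        rw [hydef]; push_cast; exact ZMod.pow_card _
      rw [← this]; exact h1
    have h3 : (l : ℤ) ∣ (z : ℤ) - 1 := by
      have : ((z : ℤ) : ZMod l) = ((1 : ℤ) : ZMod l) := by push_cast; exact h2
      rw [ZMod.intCast_eq_intCast_iff_dvd_sub] at this
      have h4 := (dvd_neg.2 this)
      simpa using h4
    have h4 : ((l : ℤ) ^ 2) ∣ (z : ℤ) ^ l - 1 := by
      have := dvd_sub_pow_of_dvd_sub (R := ℤ) (p := l) (a := (z : ℤ)) (b := 1) h3 1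
      simpa using this
    have h5 : (y : ZMod (l ^ 2)) = 1 := by
      have h6 : (((z : ℤ) ^ l - 1 : ℤ) : ZMod (l ^ 2)) = 0 := by
        rw [ZMod.intCast_zmod_eq_zero_iff_dvd]
        exact_mod_cast h4
      push_cast at h6
      rw [hydef]; push_cast
      exact sub_eq_zero.1 h6
    have h6 : (S : ZMod (l ^ 2)) = (l : ZMod (l ^ 2)) := by
      rw [hS]; push_cast; rw [h5]; simp
    have h7 : ((l : ℕ) : ZMod (l ^ 2)) = 0 := by
      rw [← h6, ZMod.natCast_eq_zero_iff]; exact h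
    rw [ZMod.natCast_eq_zero_iff] at h7
    have h8 := Nat.le_of_dvd hl.pos h7
    nlinarith [hl.one_lt]
  by_contra hcon
  push Not at hcon
  have hall : ∀ {d : ℕ}, d.Prime → d ∣ S → d = l := by
    intro d hd hdS
    by_contra hne
    exact hcon d hd hne hdS
  have hpow := Nat.eq_prime_pow_of_unique_prime_dvd (by omega : S ≠ 0) hall
  set k := S.primeFactorsList.length with hk
  have hk2 : 2 ≤ k := by
    by_contra hk2
    have : k = 0 ∨ k = 1 := by omega
    rcases this with h | h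
    · rw [h] at hpow
      have := hl.one_lt
      simp at hpow
      omega
    · rw [h] at hpow
      simp at hpow
      omega
  exact hsq (by rw [hpow]; exact pow_dvd_pow l hk2)

/-- For `p ≥ 2` and `j ≥ 1` there is a prime `q` with `p` of order `l ^ (j + 1)` modulo `q`. -/
theorem exists_prime_order {l p : ℕ} (hl : l.Prime) (hp : 2 ≤ p) {j : ℕ} (hj : 1 ≤ j) :
    ∃ q : ℕ, q.Prime ∧ q ≠ l ∧ ∃ u : (ZMod q)ˣ, (u : ZMod q) = p ∧ orderOf u = l ^ (j + 1) := by
  have : Fact l.Prime := ⟨hl⟩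
  obtain ⟨i, rfl⟩ : ∃ i, j = i + 1 := ⟨j - 1, by omega⟩
  have hy : 2 ≤ (p ^ l ^ i) ^ l := by
    rw [← pow_mul]
    calc 2 ≤ p := hp
      _ = p ^ 1 := (pow_one p).symm
      _ ≤ p ^ (l ^ i * l) := Nat.pow_le_pow_right (by omega)
          (Nat.succ_le_of_lt (Nat.mul_pos (pow_pos hl.pos _) hl.pos))
  obtain ⟨q, hq, hql, hdvd⟩ := exists_prime_geom hl hy
  have : Fact q.Prime := ⟨hq⟩
  have hyj : (p ^ l ^ i) ^ l = p ^ l ^ (i + 1) := by rw [← pow_mul, pow_succ]
  rw [hyj] at hdvd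
  set y := p ^ l ^ (i + 1) with hydef
  have hS0 : ((∑ k ∈ range l, y ^ k : ℕ) : ZMod q) = 0 := by
    rw [ZMod.natCast_eq_zero_iff]; exact hdvd
  have hne : ¬ (p : ZMod q) ^ l ^ (i + 1) = 1 := by
    intro h
    have h1 : (y : ZMod q) = 1 := by rw [hydef]; push_cast; exact h
    push_cast at hS0
    rw [h1] at hS0
    simp only [one_pow, sum_const, card_range, nsmul_eq_mul, mul_one] at hS0
    rw [ZMod.natCast_eq_zero_iff] at hS0
    exact hql ((Nat.prime_dvd_prime_iff_eq hq hl).1 hS0)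
  have hone : (p : ZMod q) ^ l ^ (i + 1 + 1) = 1 := by
    have h1 : ((∑ k ∈ range l, y ^ k : ℕ) : ZMod q) * ((y : ZMod q) - 1) = (y : ZMod q) ^ l - 1 := by
      push_cast
      exact geom_sum_mul _ _
    rw [hS0, zero_mul] at h1
    have h2 : (y : ZMod q) ^ l = 1 := (sub_eq_zero.1 h1.symm)
    rw [pow_succ l, pow_mul]
    rw [hydef] at h2
    push_cast at h2
    exact h2
  refine ⟨q, hq, hql, ?_⟩
  have hu : IsUnit (p : ZMod q) := IsUnit.of_pow_eq_one hone (pow_pos hl.pos _).ne'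
  refine ⟨hu.unit, hu.unit_spec, ?_⟩
  rw [← orderOf_units, hu.unit_spec]
  exact orderOf_eq_prime_pow hne hone

/-- An injective character of a finite cyclic group. -/
theorem exists_inj_char (G : Type) [CommGroup G] [Finite G] [IsCyclic G] :
    ∃ ι : G →* ℂˣ, Function.Injective ι := by
  have hN : Nat.card G ≠ 0 := Nat.card_pos.ne'
  have : NeZero (Nat.card G) := ⟨hN⟩
  have e : Multiplicative (ZMod (Nat.card G)) ≃* G := zmodCyclicMulEquiv inferInstance
  let t : Multiplicative (ZMod (Nat.card G)) →* Circle := (ZMod.toCircle (N := Nat.card G)).toMonoidHom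
  refine ⟨Circle.toUnits.comp (t.comp e.symm.toMonoidHom), ?_⟩
  intro a b hab
  have h1 : ((Circle.toUnits (t (e.symm a)) : ℂˣ) : ℂ) = ((Circle.toUnits (t (e.symm b)) : ℂˣ) : ℂ) :=
    congrArg (fun u : ℂˣ => (u : ℂ)) hab
  have h2 : t (e.symm a) = t (e.symm b) := by
    apply Circle.ext
    simpa using h1
  have h3 : e.symm a = e.symm b := ZMod.injective_toCircle h2
  exact e.symm.injective h3

/-- The local piece: a character modulo one prime `q`. -/
theorem exists_local {l p : ℕ} (hl : l.Prime) (hp : 2 ≤ p) {j : ℕ} (hj : 1 ≤ j) :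
    ∃ (q : ℕ) (c : ℕ) (ψ : (ZMod q)ˣ →* ℂˣ), q.Prime ∧ l ^ (j + 1) < q ∧ ψ (-1) = 1 ∧
      (∀ x, ψ x ^ l ^ c = 1) ∧
      ∀ i < j, ∀ u : (ZMod q)ˣ, (u : ZMod q) = p → ψ u ^ l ^ i ≠ 1 := by
  obtain ⟨q, hq, hql, u, hu, hord⟩ := exists_prime_order hl hp hj
  have : Fact q.Prime := ⟨hq⟩
  obtain ⟨ι, hι⟩ := exists_inj_char (ZMod q)ˣ
  have hcard : Fintype.card (ZMod q)ˣ = q - 1 := ZMod.card_units q
  have hq1 : q - 1 ≠ 0 := by have := hq.two_le; omega
  obtain ⟨c, m, hm, hcm⟩ := Nat.exists_eq_pow_mul_and_not_dvd hq1 l hl.ne_one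
  refine ⟨q, c, ι ^ (2 * m), hq, ?_, ?_, ?_, ?_⟩
  · have h1 : l ^ (j + 1) ∣ q - 1 := by
      rw [← hord, ← hcard]; exact orderOf_dvd_card
    have h2 := Nat.le_of_dvd (Nat.pos_of_ne_zero hq1) h1
    omega
  · rw [MonoidHom.pow_apply, pow_mul, ← map_pow]
    simp
  · intro x
    rw [MonoidHom.pow_apply, ← pow_mul, mul_assoc, mul_comm m, ← hcm, mul_comm 2, pow_mul,
      ← map_pow, ← hcard, pow_card_eq_one]
    simp
  · intro i hi v hv h
    have hvu : v = u := by
      apply Units.ext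
      rw [hv, hu]
    rw [hvu, MonoidHom.pow_apply, ← pow_mul, ← map_pow] at h
    have h1 : u ^ (2 * m * l ^ i) = 1 := by
      apply hι
      rw [h, map_one]
    have h2 : l ^ (j + 1) ∣ 2 * m * l ^ i := by
      rw [← hord]; exact orderOf_dvd_of_pow_eq_one h1
    have h3 : l ^ 2 * l ^ i ∣ 2 * m * l ^ i := by
      rw [← pow_add]
      exact (pow_dvd_pow l (by omega)).trans h2
    have h4 : l ^ 2 ∣ 2 * m := Nat.dvd_of_mul_dvd_mul_right (pow_pos hl.pos i) h3
    have h5 : Nat.Coprime (l ^ 2) m := Nat.Coprime.pow_left 2 ((Nat.Prime.coprime_iff_not_dvd hl).2 hm)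
    have h6 : l ^ 2 ∣ 2 := h5.dvd_of_dvd_mul_right h4
    have h7 := Nat.le_of_dvd (by norm_num) h6
    have h8 := hl.two_le
    nlinarith

/-- Two bad exponents force `h = 1`. -/
theorem eq_one_of_two {G : Type} [CommGroup G] {l : ℕ} (hl : l.Prime) {g h : G} {c k₁ k₂ : ℕ}
    (hk : k₁ < k₂) (hc : h ^ l ^ c = 1) (h1 : g * h ^ l ^ k₁ = 1) (h2 : g * h ^ l ^ k₂ = 1) :
    g = 1 ∧ h ^ l ^ k₁ = 1 := by
  have h3 : h ^ l ^ k₁ = h ^ l ^ k₂ := mul_left_cancel (h1.trans h2.symm)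
  set x := h ^ l ^ k₁ with hx
  obtain ⟨d, rfl⟩ : ∃ d, k₂ = k₁ + (d + 1) := ⟨k₂ - k₁ - 1, by omega⟩
  have h4 : x ^ l ^ (d + 1) = x := by
    rw [hx, ← pow_mul, ← pow_add]
    exact h3.symm
  have h5 : x ^ l ^ c = 1 := by
    rw [hx, ← pow_mul, mul_comm, pow_mul, hc, one_pow]
  have h6 : x ^ (l ^ (d + 1) - 1) = 1 := by
    have h7 : x ^ (l ^ (d + 1) - 1) * x = x := by
      rw [← pow_succ, Nat.sub_add_cancel (Nat.one_le_pow _ _ hl.pos)]
      exact h4
    exact mul_eq_right.1 h7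
  have hcop : Nat.Coprime (l ^ (d + 1) - 1) (l ^ c) := by
    apply Nat.Coprime.pow_right
    rw [Nat.coprime_comm, Nat.Prime.coprime_iff_not_dvd hl]
    intro h
    have h7 : l ∣ l ^ (d + 1) := dvd_pow_self l (Nat.succ_ne_zero d)
    have h8 : 1 ≤ l ^ (d + 1) := Nat.one_le_pow _ _ hl.pos
    have h9 : l ∣ 1 := by
      have := Nat.dvd_sub h7 h
      rwa [Nat.sub_sub_self h8] at this
    exact hl.one_lt.ne' (Nat.dvd_one.1 h9)
  have hx1 : x = 1 := by
    have h7 : orderOf x ∣ l ^ (d + 1) - 1 := orderOf_dvd_of_pow_eq_one h6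
    have h8 : orderOf x ∣ l ^ c := orderOf_dvd_of_pow_eq_one h5
    have h9 : orderOf x ∣ 1 := by
      rw [← hcop.gcd_eq_one]; exact Nat.dvd_gcd h7 h8
    exact orderOf_eq_one_iff.1 (Nat.dvd_one.1 h9)
  refine ⟨?_, hx1⟩
  rw [hx1, mul_one] at h1
  exact h1

/-- [E] with values in `ℂˣ`. -/
theorem exists_psi_C (l : ℕ) (hl : l.Prime) (A : ℕ) (T : Finset ℕ) (hT : ∀ p ∈ T, 2 ≤ p) (B : ℕ) :
    ∃ (m c : ℕ) (ψ : (ZMod m)ˣ →* ℂˣ), 0 < m ∧ (∀ q, q.Prime → q ∣ m → B < q) ∧ Squarefree m ∧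
      (∀ x, ψ x ^ l ^ c = 1) ∧ ψ (-1) = 1 ∧
      ∀ p ∈ T, ∀ u : (ZMod m)ˣ, (u : ZMod m) = p → ψ u ^ l ^ A ≠ 1 := by
  induction T using Finset.induction_on with
  | empty =>
    refine ⟨1, 0, 1, one_pos, ?_, squarefree_one, by simp, by simp, by simp⟩
    intro q hq h
    exact absurd (Nat.dvd_one.1 h) hq.one_lt.ne'
  | insert p T hpT ih =>
    obtain ⟨m, c, ψ, hm, hmB, hmsq, hψc, hψ1, hψT⟩ :=
      ih (fun x hx => hT x (Finset.mem_insert_of_mem hx))
    have hp2 : 2 ≤ p := hT p (Finset.mem_insert_self _ _)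
    set j := A + (#T + 3) + (B + m) with hj
    obtain ⟨q, c', ψ', hq, hqj, hψ'1, hψ'c, hψ'p⟩ := exists_local hl hp2 (j := j) (by omega)
    have hlj : j < l ^ (j + 1) := lt_of_lt_of_le (Nat.lt_succ_self j)
      (Nat.lt_pow_self hl.one_lt).le
    have hqB : B < q := by omega
    have hqm : m < q := by omega
    have hcop : Nat.Coprime m q := by
      rw [Nat.coprime_comm, Nat.Prime.coprime_iff_not_dvd hq]
      intro h
      exact absurd (Nat.le_of_dvd hm h) (by omega)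
    set r₁ := ZMod.unitsMap (Dvd.intro q rfl : m ∣ m * q) with hr₁
    set r₂ := ZMod.unitsMap (Dvd.intro_left m rfl : q ∣ m * q) with hr₂
    have hr₁v : ∀ u : (ZMod (m * q))ˣ, ∀ x : ℕ, (u : ZMod (m * q)) = x → (r₁ u : ZMod m) = x := by
      intro u x hux
      rw [hr₁, ZMod.unitsMap_def]
      simp only [Units.coe_map, MonoidHom.coe_coe, hux, map_natCast]
    have hr₂v : ∀ u : (ZMod (m * q))ˣ, ∀ x : ℕ, (u : ZMod (m * q)) = x → (r₂ u : ZMod q) = x := by
      intro u x hux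
      rw [hr₂, ZMod.unitsMap_def]
      simp only [Units.coe_map, MonoidHom.coe_coe, hux, map_natCast]
    let φ : ℕ → ((ZMod (m * q))ˣ →* ℂˣ) := fun k => ψ.comp r₁ * (ψ'.comp r₂) ^ l ^ k
    have hφ : ∀ k u, φ k u = ψ (r₁ u) * ψ' (r₂ u) ^ l ^ k := by
      intro k u
      simp [φ]
    classical
    let bad : ℕ → Finset ℕ := fun x =>
      (range (#T + 2)).filter (fun k => ∃ u : (ZMod (m * q))ˣ, (u : ZMod (m * q)) = x ∧
        φ k u ^ l ^ A = 1)
    have hbad : ∀ x ∈ insert p T, #(bad x) ≤ 1 := by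
      intro x hx
      have key : ∀ a ∈ bad x, ∀ b ∈ bad x, ¬ a < b := by
        intro a ha b hb hab
        simp only [bad, Finset.mem_filter, Finset.mem_range] at ha hb
        obtain ⟨ha1, u, hu, hua⟩ := ha
        obtain ⟨hb1, v, hv, hvb⟩ := hb
        have hvu : v = u := Units.ext (by rw [hv, hu])
        subst hvu
        rw [hφ, mul_pow, ← pow_mul, mul_comm (l ^ a), pow_mul] at hua
        rw [hφ, mul_pow, ← pow_mul, mul_comm (l ^ b), pow_mul] at hvb
        have hc'' : (ψ' (r₂ v) ^ l ^ A) ^ l ^ c' = 1 := by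
          rw [← pow_mul, mul_comm (l ^ A), pow_mul, hψ'c, one_pow]
        obtain ⟨hg, hh⟩ := eq_one_of_two hl hab hc'' hua hvb
        rcases Finset.mem_insert.1 hx with hxp | hxT
        · subst hxp
          rw [← pow_mul, ← pow_add] at hh
          exact hψ'p (A + a) (by omega) (r₂ v) (hr₂v v x hv) hh
        · exact hψT x hxT (r₁ v) (hr₁v v x hv) hg
      rw [Finset.card_le_one]
      intro a ha b hb
      by_contra hne
      rcases lt_or_gt_of_ne hne with h | h
      · exact key a ha b hb h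
      · exact key b hb a ha h
    obtain ⟨k, hk⟩ : ∃ k ∈ range (#T + 2), k ∉ (insert p T).biUnion bad := by
      by_contra hcon
      push Not at hcon
      have h1 : #(range (#T + 2)) ≤ #((insert p T).biUnion bad) :=
        Finset.card_le_card (fun k hk => hcon k hk)
      have h2 : #((insert p T).biUnion bad) ≤ #(insert p T) * 1 :=
        Finset.card_biUnion_le_card_mul _ _ _ hbad
      rw [Finset.card_insert_of_notMem hpT] at h2
      rw [Finset.card_range] at h1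
      omega
    refine ⟨m * q, c + c', φ k, Nat.mul_pos hm hq.pos, ?_, ?_, ?_, ?_, ?_⟩
    · intro q' hq' hd
      rcases (Nat.Prime.dvd_mul hq').1 hd with h | h
      · exact hmB q' hq' h
      · rw [(Nat.prime_dvd_prime_iff_eq hq' hq).1 h]; exact hqB
    · exact (Nat.squarefree_mul hcop).2 ⟨hmsq, hq.prime.squarefree⟩
    · intro x
      have h1 : ψ (r₁ x) ^ l ^ (c + c') = 1 := by
        rw [pow_add, pow_mul, hψc, one_pow]
      have h2 : ψ' (r₂ x) ^ l ^ (c + c') = 1 := by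
        rw [add_comm c, pow_add, pow_mul, hψ'c, one_pow]
      rw [hφ, mul_pow, h1, one_mul, ← pow_mul, mul_comm (l ^ k), pow_mul, h2, one_pow]
    · rw [hφ]
      have h1 : r₁ (-1) = -1 := by
        apply Units.ext
        rw [hr₁, ZMod.unitsMap_def]
        simp
      have h2 : r₂ (-1) = -1 := by
        apply Units.ext
        rw [hr₂, ZMod.unitsMap_def]
        simp
      rw [h1, h2, hψ1, hψ'1]
      simp
    · intro x hx u hu h
      apply hk.2
      rw [Finset.mem_biUnion]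
      refine ⟨x, hx, ?_⟩
      simp only [bad, Finset.mem_filter]
      exact ⟨hk.1, u, hu, h⟩

/-- **[E]**. -/
theorem exists_psi (l : ℕ) (hl : l.Prime) (A : ℕ) (T : Finset ℕ) (hT : ∀ p ∈ T, 2 ≤ p) (B : ℕ) :
    ∃ (m b : ℕ) (ψ : (ZMod m)ˣ →* Multiplicative (ZMod (l ^ b))), 0 < m ∧
      (∀ q, q.Prime → q ∣ m → B < q) ∧ Squarefree m ∧ Function.Surjective ψ ∧ ψ (-1) = 1 ∧
      ∀ p ∈ T, ∀ u : (ZMod m)ˣ, (u : ZMod m) = p → l ^ A ∣ orderOf (ψ u) := by
  have : Fact l.Prime := ⟨hl⟩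
  obtain ⟨m, c, ψ, hm, hmB, hmsq, hψc, hψ1, hψT⟩ := exists_psi_C l hl A T hT B
  have : NeZero m := ⟨hm.ne'⟩
  have : Finite (ZMod m)ˣ := inferInstance
  have : Finite ψ.range := Set.finite_range ψ
  have : IsCyclic ψ.range := isCyclic_subgroup_units ψ.range
  have hP : IsPGroup l ψ.range := by
    rintro ⟨x, y, rfl⟩
    exact ⟨c, Subtype.ext (by simpa using hψc y)⟩
  obtain ⟨b, hb⟩ := IsPGroup.iff_card.1 hP
  have e0 : Multiplicative (ZMod (Nat.card ψ.range)) ≃* ψ.range := zmodCyclicMulEquiv inferInstance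
  rw [hb] at e0
  refine ⟨m, b, e0.symm.toMonoidHom.comp ψ.rangeRestrict, hm, hmB, hmsq, ?_, ?_, ?_⟩
  · exact e0.symm.surjective.comp ψ.rangeRestrict_surjective
  · have h1 : ψ.rangeRestrict (-1) = 1 := Subtype.ext (by simpa using hψ1)
    rw [MonoidHom.comp_apply, h1, map_one]
  · intro p hp u hu
    have h1 : orderOf (e0.symm.toMonoidHom.comp ψ.rangeRestrict u) = orderOf (ψ u) := by
      rw [MonoidHom.comp_apply]
      have h2 : orderOf (e0.symm.toMonoidHom (ψ.rangeRestrict u)) = orderOf (ψ.rangeRestrict u) :=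
        orderOf_injective e0.symm.toMonoidHom e0.symm.injective _
      rw [h2, ← Subgroup.orderOf_coe, MonoidHom.coe_rangeRestrict]
    rw [h1]
    have h2 : orderOf (ψ u) ∣ l ^ c := orderOf_dvd_of_pow_eq_one (hψc u)
    obtain ⟨t, _, ht⟩ := (Nat.dvd_prime_pow hl).1 h2
    rw [ht]
    apply pow_dvd_pow
    by_contra hlt
    apply hψT p hp u hu
    apply orderOf_dvd_iff_pow_eq_one.1
    rw [ht]
    exact pow_dvd_pow l (by omega)

end Vale.Agent.P022.H732
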