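import Vale.Agent.P022.H567.Cft
import Vale.Agent.P022.H732.E

/-!
P022-CFT, block [CYC] of `H567/Cft.lean`.
-/

namespace Vale.Agent.P022.H732

open Finset Vale.Agent.P022.C

/-- From values in `ℂˣ` to a surjective character with values in `ℤ/l^b`. -/
theorem to_zmod {l : ℕ} (hl : l.Prime) {m c : ℕ} (hm : 0 < m) (ψ : (ZMod m)ˣ →* ℂˣ)
    (hψc : ∀ x, ψ x ^ l ^ c = 1) : ∃ (b : ℕ) (χ : (ZMod m)ˣ →* Multiplicative (ZMod (l ^ b))),
      Function.Surjective χ ∧ ∀ u, orderOf (χ u) = orderOf (ψ u) := by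
  have : Fact l.Prime := ⟨hl⟩
  have : NeZero m := ⟨hm.ne'⟩
  have : Finite (ZMod m)ˣ := inferInstance
  have : Finite ψ.range := Set.finite_range ψ
  have : IsCyclic ψ.range := isCyclic_subgroup_units ψ.range
  have hP : IsPGroup l ψ.range := by
    rintro ⟨x, y, rfl⟩
    exact ⟨c, Subtype.ext (by simpa using hψc y)⟩
  obtain ⟨b, hb⟩ := IsPGroup.iff_card.1 hP
  have e0 : Multiplicative (ZMod (Nat.card ψ.range)) ≃* ψ.range := zmodCyclicMulEquiv inferInstance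
  rw [hb] at e0
  refine ⟨b, e0.symm.toMonoidHom.comp ψ.rangeRestrict, ?_, ?_⟩
  · exact e0.symm.surjective.comp ψ.rangeRestrict_surjective
  · intro u
    rw [MonoidHom.comp_apply]
    have h2 : orderOf (e0.symm.toMonoidHom (ψ.rangeRestrict u)) = orderOf (ψ.rangeRestrict u) :=
      orderOf_injective e0.symm.toMonoidHom e0.symm.injective _
    rw [h2, ← Subgroup.orderOf_coe, MonoidHom.coe_rangeRestrict]

/-- The odd version of [E] at `l = 2`. -/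
theorem exists_psi_odd (A : ℕ) (T : Finset ℕ) (hT : ∀ p ∈ T, 2 ≤ p) (B : ℕ) :
    ∃ (m c : ℕ) (ψ : (ZMod m)ˣ →* ℂˣ), 0 < m ∧ (∀ q, q.Prime → q ∣ m → B < q) ∧
      (∀ x, ψ x ^ 2 ^ c = 1) ∧ ψ (-1) ≠ 1 ∧
      ∀ p ∈ T, ∀ u : (ZMod m)ˣ, (u : ZMod m) = p → ψ u ^ 2 ^ A ≠ 1 := by
  obtain ⟨m, c, ψ, hm, hmB, hmsq, hψc, hψ1, hψT⟩ :=
    exists_psi_C 2 Nat.prime_two (A + 1) T hT B
  have h3 : IsUnit (3 : ZMod 4) := by
    have : (3 : ZMod 4) * 3 = 1 := by decide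
    exact IsUnit.of_mul_eq_one _ this
  obtain ⟨q, hq, hqp, hq3⟩ := Nat.forall_exists_prime_gt_and_eq_mod h3 (B + m + 2)
  have : Fact q.Prime := ⟨hqp⟩
  obtain ⟨ι, hι⟩ := exists_inj_char (ZMod q)ˣ
  have hq4 : q % 4 = 3 := by
    have h : ((q : ℕ) : ZMod 4) = ((3 : ℕ) : ZMod 4) := by rw [hq3]; rfl
    rw [ZMod.natCast_eq_natCast_iff'] at h
    omega
  obtain ⟨s, hs⟩ : ∃ s, q - 1 = 2 * (2 * s + 1) := ⟨(q - 3) / 4, by omega⟩
  have hcard : Fintype.card (ZMod q)ˣ = q - 1 := ZMod.card_units q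
  have hθ2 : ∀ x, (ι x ^ (2 * s + 1)) ^ 2 = 1 := by
    intro x
    rw [← pow_mul, mul_comm, ← hs, ← hcard, ← map_pow, pow_card_eq_one, map_one]
  have hθ1 : ι (-1) ^ (2 * s + 1) ≠ 1 := by
    rw [← map_pow, Odd.neg_one_pow ⟨s, rfl⟩]
    intro h
    have h1 : (-1 : (ZMod q)ˣ) = 1 := hι (by rw [h, map_one])
    have h2 : ((-1 : (ZMod q)ˣ) : ZMod q) = 1 := by rw [h1]; rfl
    have : Fact (2 < q) := ⟨by omega⟩
    exact ZMod.neg_one_ne_one (by simpa using h2)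
  set r₁ := ZMod.unitsMap (Dvd.intro q rfl : m ∣ m * q) with hr₁
  set r₂ := ZMod.unitsMap (Dvd.intro_left m rfl : q ∣ m * q) with hr₂
  have hr₁v : ∀ u : (ZMod (m * q))ˣ, ∀ x : ℕ, (u : ZMod (m * q)) = x → (r₁ u : ZMod m) = x := by
    intro u x hux
    rw [hr₁, ZMod.unitsMap_def]
    simp only [Units.coe_map, MonoidHom.coe_coe, hux, map_natCast]
  have hφ : ∀ u, (ψ.comp r₁ * (ι.comp r₂) ^ (2 * s + 1)) u = ψ (r₁ u) * ι (r₂ u) ^ (2 * s + 1) := by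
    intro u
    simp
  refine ⟨m * q, c + 1, ψ.comp r₁ * (ι.comp r₂) ^ (2 * s + 1), Nat.mul_pos hm hqp.pos, ?_, ?_, ?_,
    ?_⟩
  · intro q' hq' hd
    rcases (Nat.Prime.dvd_mul hq').1 hd with h | h
    · exact hmB q' hq' h
    · rw [(Nat.prime_dvd_prime_iff_eq hq' hqp).1 h]; omega
  · intro x
    rw [hφ, mul_pow]
    have h1 : ψ (r₁ x) ^ 2 ^ (c + 1) = 1 := by
      rw [pow_add, pow_mul, hψc, one_pow]
    have h2 : (ι (r₂ x) ^ (2 * s + 1)) ^ 2 ^ (c + 1) = 1 := by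
      rw [pow_succ' 2 c, pow_mul (ι (r₂ x) ^ (2 * s + 1)) 2, hθ2, one_pow]
    rw [h1, h2, one_mul]
  · rw [hφ]
    have h1 : r₁ (-1) = -1 := by
      apply Units.ext
      rw [hr₁, ZMod.unitsMap_def]
      simp
    have h2 : r₂ (-1) = -1 := by
      apply Units.ext
      rw [hr₂, ZMod.unitsMap_def]
      simp
    rw [h1, h2, hψ1, one_mul]
    exact hθ1
  · intro p hp u hu h
    rw [hφ, mul_pow] at h
    have h5 : (ψ (r₁ u) ^ 2 ^ A * (ι (r₂ u) ^ (2 * s + 1)) ^ 2 ^ A) ^ 2 = 1 := by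
      rw [h, one_pow]
    rw [mul_pow, ← pow_mul (ι (r₂ u) ^ (2 * s + 1)), mul_comm (2 ^ A),
      pow_mul (ι (r₂ u) ^ (2 * s + 1)), hθ2, one_pow, mul_one, ← pow_mul] at h5
    exact hψT p hp (r₁ u) (hr₁v u p hu) (by rw [pow_succ]; exact h5)

/-- **[CYC]**. -/
theorem CYC : CYCStmt := by
  intro ℓ hℓ r A hA B hB
  have : Fact ℓ.Prime := ⟨hℓ⟩
  obtain ⟨m, c, ψ, hm, hmB, hψc, hψ1, hψT⟩ : ∃ (m c : ℕ) (ψ : (ZMod m)ˣ →* ℂˣ), 0 < m ∧
      (∀ q, q.Prime → q ∣ m → B + ∑ a ∈ A, a < q) ∧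
      (∀ x, ψ x ^ ℓ ^ c = 1) ∧ (ℓ = 2 → ψ (-1) ≠ 1) ∧
      ∀ p ∈ A, ∀ u : (ZMod m)ˣ, (u : ZMod m) = p → ψ u ^ ℓ ^ r ≠ 1 := by
    by_cases h2 : ℓ = 2
    · subst h2
      obtain ⟨m, c, ψ, h1, h2, h3, h4, h5⟩ := exists_psi_odd r A hA (B + ∑ a ∈ A, a)
      exact ⟨m, c, ψ, h1, h2, h3, fun _ => h4, h5⟩
    · obtain ⟨m, c, ψ, h1, h2', _, h3, _, h5⟩ := exists_psi_C ℓ hℓ r A hA (B + ∑ a ∈ A, a)
      exact ⟨m, c, ψ, h1, h2', h3, fun h => absurd h h2, h5⟩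
  obtain ⟨k, χ, hχs, hχo⟩ := to_zmod hℓ hm ψ hψc
  have hcop : ∀ x : ℕ, x ≠ 0 → x ≤ B + ∑ a ∈ A, a → Nat.Coprime m x := by
    intro x hx0 hx
    apply Nat.Coprime.symm
    apply Nat.coprime_of_dvd
    intro q hq hqx hqm
    have h1 := hmB q hq hqm
    have h2 := Nat.le_of_dvd (Nat.pos_of_ne_zero hx0) hqx
    omega
  refine ⟨m, k, χ, hm, hcop B hB (Nat.le_add_right _ _), hχs, ?_, ?_⟩
  · intro a ha
    have ha2 := hA a ha
    have hle : a ≤ ∑ a ∈ A, a := Finset.single_le_sum (f := fun a => a) (fun _ _ => Nat.zero_le _) ha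
    have hu : IsUnit (a : ZMod m) := by
      rw [ZMod.isUnit_iff_coprime]
      exact (hcop a (by omega) (by omega)).symm
    refine ⟨hu, ?_⟩
    intro i hi
    have h1 : ex χ (a : ZMod m) = Multiplicative.toAdd (χ hu.unit) := by
      unfold ex
      rw [dif_pos hu]
    rw [h1, ← toAdd_pow] at hi
    have h2 : χ hu.unit ^ i = 1 := by
      apply Multiplicative.toAdd.injective
      rw [hi]; rfl
    have h3 : orderOf (ψ hu.unit) ∣ i := by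
      rw [← hχo]; exact orderOf_dvd_of_pow_eq_one h2
    refine dvd_trans ?_ h3
    have h4 : orderOf (ψ hu.unit) ∣ ℓ ^ c := orderOf_dvd_of_pow_eq_one (hψc _)
    obtain ⟨t, _, ht⟩ := (Nat.dvd_prime_pow hℓ).1 h4
    rw [ht]
    apply pow_dvd_pow
    by_contra hlt
    apply hψT a ha hu.unit hu.unit_spec
    apply orderOf_dvd_iff_pow_eq_one.1
    rw [ht]
    exact pow_dvd_pow ℓ (by omega)
  · intro h2 h0
    apply hψ1 h2
    have hu : IsUnit (-1 : ZMod m) := isUnit_one.neg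
    have hu1 : hu.unit = -1 := Units.ext (by rw [hu.unit_spec]; simp)
    have h1 : ex χ (-1) = Multiplicative.toAdd (χ (-1)) := by
      unfold ex
      rw [dif_pos hu, hu1]
    rw [h1] at h0
    have h3 : χ (-1) = 1 := by
      apply Multiplicative.toAdd.injective
      rw [h0]; rfl
    have h4 := hχo (-1)
    rw [h3, orderOf_one] at h4
    exact orderOf_eq_one_iff.1 h4.symm

end Vale.Agent.P022.H732
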